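import Mathlib

/-!
# P264: orbits of a finite-rank perturbation of a contraction

If `B = E + U L` with `‖E‖ ≤ θ` and `L` of finite rank, then for each rate `ρ ∈ (θ, 1/...)` the
orbits `B ^ n x = O(ρ ^ n)` fill a closed subspace of finite codimension: the generating function of
`L (B ^ n x)` is a quotient of analytic functions with the denominator `det (1 - M z)`, which has
finitely many zeros in `|z| ≤ r < 1 / θ`.
-/

namespace Vale.Agent.P264.Abstract

open Filter Metric Topology Finset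

attribute [local simp] mul_apply_eq_comp
attribute [-simp] pow_apply_eq_iterate FunLike.coe_pow_eq_iterate

section division

variable {W : Type*} [NormedAddCommGroup W] [NormedSpace ℂ W] [CompleteSpace W]

omit [CompleteSpace W] in
/-- After finitely many linear conditions, `N` vanishes to order `n` at `z₀`. -/
theorem exists_order_conditions (n : ℕ) (z₀ : ℂ) :
    ∀ N : ℂ → W, AnalyticAt ℂ N z₀ → ∃ s : Finset W, ∀ e : W →L[ℂ] ℂ, (∀ w ∈ s, e w = 0) →
      ∃ v : ℂ → ℂ, AnalyticAt ℂ v z₀ ∧ ∀ᶠ z in 𝓝 z₀, e (N z) = (z - z₀) ^ n * v z := by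
  classical
  induction n with
  | zero => exact fun N hN => ⟨∅, fun e _ =>
      ⟨fun z => e (N z), (e.analyticAt _).comp hN, Eventually.of_forall fun z => by simp⟩⟩
  | succ n ih =>
    intro N hN
    obtain ⟨p, hp⟩ := hN
    have h1 : AnalyticAt ℂ (dslope N z₀) z₀ := ⟨_, hp.has_fpower_series_dslope_fslope⟩
    obtain ⟨s, hs⟩ := ih _ h1
    refine ⟨insert (N z₀) s, fun e he => ?_⟩
    obtain ⟨v, hv, hev⟩ := hs e fun w hw => he w (mem_insert_of_mem hw)
    refine ⟨v, hv, hev.mono fun z hz => ?_⟩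
    have h := congrArg e (sub_smul_dslope N z₀ z)
    simp only [map_smul, map_sub, smul_eq_mul, he _ (mem_insert_self _ _), sub_zero] at h
    rw [← h, hz, pow_succ]; ring

/-- Division by an analytic function after finitely many linear conditions. -/
theorem exists_division_conditions {d : ℂ → ℂ} {N : ℂ → W} {r R : ℝ} (hrR : r < R) (hr : 0 ≤ r)
    (hd : DifferentiableOn ℂ d (ball 0 R)) (hN : DifferentiableOn ℂ N (ball 0 R)) (hd0 : d 0 ≠ 0) :
    ∃ s : Finset W, ∀ e : W →L[ℂ] ℂ, (∀ w ∈ s, e w = 0) →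
      ∃ h : ℂ → ℂ, DifferentiableOn ℂ h (ball 0 r) ∧
        ∀ z ∈ ball (0 : ℂ) r, d z * h z = e (N z) := by
  classical
  have hsub : closedBall (0 : ℂ) r ⊆ ball 0 R := closedBall_subset_ball hrR
  have hda : AnalyticOnNhd ℂ d (ball 0 R) := hd.analyticOnNhd isOpen_ball
  have hNa : AnalyticOnNhd ℂ N (ball 0 R) := hN.analyticOnNhd isOpen_ball
  have hnz : ∀ z ∈ ball (0 : ℂ) R, ¬ ∀ᶠ w in 𝓝 z, d w = 0 := by
    intro z hz hev
    exact hd0 (hda.eqOn_zero_of_preconnected_of_eventuallyEq_zero (convex_ball 0 R).isPreconnected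
      hz hev (mem_ball_self (lt_of_le_of_lt hr hrR)))
  have hfin : {z ∈ closedBall (0 : ℂ) r | d z = 0}.Finite := by
    by_contra hinf
    obtain ⟨z, hz, hacc⟩ := Set.Infinite.exists_accPt_of_subset_isCompact hinf
      (isCompact_closedBall _ _) fun z hz => hz.1
    refine hd0 (hda.eqOn_zero_of_preconnected_of_frequently_eq_zero
      (convex_ball 0 R).isPreconnected (hsub hz) ?_ (mem_ball_self (lt_of_le_of_lt hr hrR)))
    exact (accPt_iff_frequently_nhdsNE.1 hacc).mono fun w hw => hw.2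
  have hfac : ∀ z ∈ hfin.toFinset, ∃ (n : ℕ) (u : ℂ → ℂ) (s : Finset W),
      AnalyticAt ℂ u z ∧ u z ≠ 0 ∧ (∀ᶠ w in 𝓝 z, d w = (w - z) ^ n * u w) ∧
      ∀ e : W →L[ℂ] ℂ, (∀ w ∈ s, e w = 0) → ∃ v : ℂ → ℂ, AnalyticAt ℂ v z ∧
        ∀ᶠ w in 𝓝 z, e (N w) = (w - z) ^ n * v w := by
    intro z hz
    have hzR := hsub (hfin.mem_toFinset.1 hz).1
    obtain ⟨n, u, hu, hu0, hev⟩ :=
      (hda z hzR).exists_eventuallyEq_pow_smul_nonzero_iff.2 (hnz z hzR)
    obtain ⟨s, hs⟩ := exists_order_conditions n z N (hNa z hzR)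
    exact ⟨n, u, s, hu, hu0, hev, hs⟩
  choose! n u s hu hu0 hev hs using hfac
  refine ⟨hfin.toFinset.biUnion s, fun e he => ?_⟩
  let f : ℂ → ℂ := fun w => e (N w) / d w
  let h : ℂ → ℂ := fun z => limUnder (𝓝[≠] z) f
  have hreg : ∀ z ∈ ball (0 : ℂ) r, d z ≠ 0 → DifferentiableAt ℂ f z ∧ h z = f z := by
    intro z hz hdz
    have hzR := hsub (ball_subset_closedBall hz)
    have hf : DifferentiableAt ℂ f z :=
      ((e.analyticAt _).comp (hNa z hzR)).differentiableAt.div (hda z hzR).differentiableAt hdz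
    exact ⟨hf, (hf.continuousAt.tendsto.mono_left nhdsWithin_le_nhds).limUnder_eq⟩
  have hsing : ∀ z ∈ ball (0 : ℂ) r, d z = 0 →
      DifferentiableAt ℂ h z ∧ e (N z) = 0 := by
    intro z hz hdz
    have hzF : z ∈ hfin.toFinset := hfin.mem_toFinset.2 ⟨ball_subset_closedBall hz, hdz⟩
    obtain ⟨v, hv, hvev⟩ := hs z hzF e fun w hw => he w (mem_biUnion.2 ⟨z, hzF, hw⟩)
    have hn : n z ≠ 0 := by
      intro h0
      have := (hev z hzF).self_of_nhds
      rw [h0, pow_zero, one_mul, hdz] at this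
      exact hu0 z hzF this.symm
    have hq : DifferentiableAt ℂ (fun w => v w / u z w) z :=
      hv.differentiableAt.div (hu z hzF).differentiableAt (hu0 z hzF)
    have hne : ∀ᶠ w in 𝓝 z, u z w ≠ 0 :=
      (hu z hzF).continuousAt.eventually_ne (hu0 z hzF)
    have hfq : ∀ᶠ w in 𝓝[≠] z, d w ≠ 0 ∧ f w = v w / u z w := by
      filter_upwards [nhdsWithin_le_nhds (hev z hzF), nhdsWithin_le_nhds hvev,
        nhdsWithin_le_nhds hne, self_mem_nhdsWithin] with w h1 h2 h3 h4
      have hp : (w - z) ^ n z ≠ 0 := pow_ne_zero _ (sub_ne_zero.2 h4)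
      refine ⟨by rw [h1]; exact mul_ne_zero hp h3, ?_⟩
      simp only [f, h1, h2, mul_div_mul_left _ _ hp]
    refine ⟨hq.congr_of_eventuallyEq ?_, ?_⟩
    · filter_upwards [eventually_nhdsWithin_iff.1 hfq, isOpen_ball.mem_nhds hz] with w hw hwb
      by_cases hwz : w = z
      · subst hwz
        exact ((hq.continuousAt.tendsto.mono_left nhdsWithin_le_nhds).congr'
          (hfq.mono fun x hx => hx.2.symm)).limUnder_eq
      · rw [(hreg w hwb (hw hwz).1).2, (hw hwz).2]
    · rw [hvev.self_of_nhds, sub_self, zero_pow hn, zero_mul]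
  refine ⟨h, fun z hz => ?_, fun z hz => ?_⟩
  · by_cases hdz : d z = 0
    · exact (hsing z hz hdz).1.differentiableWithinAt
    · refine ((hreg z hz hdz).1.congr_of_eventuallyEq ?_).differentiableWithinAt
      filter_upwards [isOpen_ball.mem_nhds hz,
        ((hda z (hsub (ball_subset_closedBall hz))).continuousAt.eventually_ne hdz)] with w hw hw'
      exact (hreg w hw hw').2
  · by_cases hdz : d z = 0
    · rw [hdz, zero_mul, (hsing z hz hdz).2]
    · rw [(hreg z hz hdz).2]; exact mul_div_cancel₀ _ hdz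

end division

/-- A power series with geometrically bounded coefficients is differentiable inside its radius. -/
theorem differentiableOn_series {V : Type*} [NormedAddCommGroup V] [NormedSpace ℂ V]
    [CompleteSpace V] {c : ℕ → V} {C θ R : ℝ} (hθ : 0 ≤ θ) (hR : 0 ≤ R) (hθR : θ * R < 1)
    (hc : ∀ n, ‖c n‖ ≤ C * θ ^ n) :
    DifferentiableOn ℂ (fun z : ℂ => ∑' n, z ^ n • c n) (ball 0 R) := by
  refine Complex.differentiableOn_tsum_of_summable_norm
    ((summable_geometric_of_lt_one (mul_nonneg hθ hR) hθR).mul_left C)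
    (fun n => ((differentiable_id.pow n).smul_const (c n)).differentiableOn) isOpen_ball
    fun n z hz => ?_
  rw [norm_smul, norm_pow, mul_pow]
  calc ‖z‖ ^ n * ‖c n‖ ≤ R ^ n * (C * θ ^ n) :=
        mul_le_mul (pow_le_pow_left₀ (norm_nonneg z) (mem_ball_zero_iff.1 hz).le n) (hc n)
          (norm_nonneg _) (pow_nonneg hR n)
    _ = C * (θ ^ n * R ^ n) := by ring

theorem differentiableOn_det {k : ℕ} {A : ℂ → Matrix (Fin k) (Fin k) ℂ} {s : Set ℂ}
    (h : ∀ i j, DifferentiableOn ℂ (fun z => A z i j) s) :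
    DifferentiableOn ℂ (fun z => (A z).det) s := by
  simp only [Matrix.det_apply, Units.smul_def, zsmul_eq_mul]
  exact DifferentiableOn.fun_sum fun σ _ =>
    (DifferentiableOn.fun_finsetProd fun i _ => h _ _).const_mul _

/-- `∑ θ ^ (n - 1 - m) ρ ^ m ≤ ρ ^ n / (ρ - θ)`. -/
theorem sum_pow_mul_le {θ ρ : ℝ} (hθ : 0 ≤ θ) (h : θ < ρ) (n : ℕ) :
    ∑ m ∈ range n, θ ^ (n - 1 - m) * ρ ^ m ≤ ρ ^ n / (ρ - θ) := by
  rw [le_div_iff₀ (sub_pos.2 h)]
  have := geom_sum₂_mul ρ θ n
  have e : ∑ m ∈ range n, θ ^ (n - 1 - m) * ρ ^ m = ∑ m ∈ range n, ρ ^ m * θ ^ (n - 1 - m) :=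
    sum_congr rfl fun m _ => mul_comm _ _
  rw [e, this]
  linarith [pow_nonneg hθ n]

variable {X : Type*} [NormedAddCommGroup X] [NormedSpace ℝ X]

theorem norm_pow_apply_le {E : X →L[ℝ] X} {θ : ℝ} (hE : ∀ x, ‖E x‖ ≤ θ * ‖x‖) (hθ : 0 ≤ θ)
    (n : ℕ) (x : X) : ‖(E ^ n) x‖ ≤ θ ^ n * ‖x‖ := by
  induction n with
  | zero => simp
  | succ n ih =>
    rw [pow_succ', mul_apply_eq_comp, pow_succ' θ, mul_assoc]
    exact (hE _).trans (mul_le_mul_of_nonneg_left ih hθ)

theorem pow_apply_eq (B E : X →L[ℝ] X) (n : ℕ) (x : X) :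
    (B ^ n) x = (E ^ n) x + ∑ m ∈ range n, (E ^ (n - 1 - m)) ((B - E) ((B ^ m) x)) := by
  induction n with
  | zero => simp
  | succ n ih =>
    rw [sum_range_succ, pow_succ' B, mul_apply_eq_comp, Nat.add_sub_cancel,
      Nat.sub_self, pow_zero, one_apply_eq_self,
      show B ((B ^ n) x) = E ((B ^ n) x) + (B - E) ((B ^ n) x) by simp, ← add_assoc]
    congr 1
    rw [ih, map_add, map_sum, pow_succ', mul_apply_eq_comp]
    congr 1
    refine sum_congr rfl fun m hm => ?_
    rw [mem_range] at hm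
    rw [show n - m = (n - 1 - m) + 1 by omega, pow_succ', mul_apply_eq_comp]

/-- Orbits decaying at rate `ρ`. -/
def slow (B : X →L[ℝ] X) (ρ : ℝ) : Submodule ℝ X where
  carrier := {x | ∃ C, ∀ n : ℕ, ‖(B ^ n) x‖ ≤ C * ρ ^ n}
  zero_mem' := ⟨0, fun n => by simp⟩
  add_mem' := by
    rintro x y ⟨C, hC⟩ ⟨D, hD⟩
    exact ⟨C + D, fun n => by
      rw [map_add, add_mul]; exact (norm_add_le _ _).trans (add_le_add (hC n) (hD n))⟩
  smul_mem' := by
    rintro r x ⟨C, hC⟩
    exact ⟨|r| * C, fun n => by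
      rw [map_smul, norm_smul, Real.norm_eq_abs, mul_assoc]
      exact mul_le_mul_of_nonneg_left (hC n) (abs_nonneg r)⟩

theorem exists_conditions {k : ℕ} {E : X →L[ℝ] X} (L : X →L[ℝ] (Fin k → ℝ))
    (U : (Fin k → ℝ) →L[ℝ] X) {θ ρ : ℝ} (hθ : 0 ≤ θ) (hρ : θ < ρ)
    (hE : ∀ x, ‖E x‖ ≤ θ * ‖x‖) :
    ∃ (n : ℕ) (φ : X →L[ℝ] (Fin n → ℂ)),
      φ.ker ≤ slow (E + U.comp L) ρ := by
  classical
  set B := E + U.comp L with hB
  have hρ0 : 0 < ρ := lt_of_le_of_lt hθ hρ
  let θ' := (θ + ρ) / 2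
  have hθ' : θ < θ' ∧ θ' < ρ ∧ 0 < θ' := by refine ⟨?_, ?_, ?_⟩ <;> simp only [θ'] <;> linarith
  let R := 1 / θ'
  have hR : 0 < R := by simp only [R]; exact one_div_pos.2 hθ'.2.2
  have hθR : θ * R < 1 := by
    simp only [R, mul_one_div]; exact (div_lt_one hθ'.2.2).2 hθ'.1
  let θ'' := (θ' + ρ) / 2
  have hθ'' : θ' < θ'' ∧ θ'' < ρ ∧ 0 < θ'' := by
    refine ⟨?_, ?_, ?_⟩ <;> simp only [θ''] <;> linarith [hθ'.2.1, hθ'.2.2]
  let r := 1 / θ''
  have hrR : r < R := one_div_lt_one_div_of_lt hθ'.2.2 hθ''.1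
  have hρr : 1 / ρ < r := one_div_lt_one_div_of_lt hθ''.2.2 hθ''.2.1
  -- kernels
  let a : ℕ → Fin k → Fin k → ℝ := fun n i j => L ((E ^ n) (U (Pi.single j 1))) i
  let g : ℕ → Fin k → (X →L[ℝ] ℂ) := fun n j =>
    (Complex.ofRealCLM.comp (ContinuousLinearMap.proj j)).comp (L.comp (E ^ n))
  have ha : ∀ i j n, ‖(a n i j : ℂ)‖ ≤ ‖L‖ * ‖U (Pi.single j 1)‖ * θ ^ n := fun i j n => by
    rw [Complex.norm_real, mul_assoc, mul_comm ‖U (Pi.single j 1)‖]
    exact (norm_le_pi_norm (L ((E ^ n) (U (Pi.single j 1)))) i).trans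
      ((L.le_opNorm _).trans (mul_le_mul_of_nonneg_left (norm_pow_apply_le hE hθ n _)
        (norm_nonneg _)))
  have hg : ∀ j n, ‖g n j‖ ≤ ‖L‖ * θ ^ n := fun j n => by
    refine ContinuousLinearMap.opNorm_le_bound _ (by positivity) fun x => ?_
    show ‖((L ((E ^ n) x) j : ℝ) : ℂ)‖ ≤ _
    rw [Complex.norm_real, mul_assoc]
    exact (norm_le_pi_norm _ j).trans
      ((L.le_opNorm _).trans (mul_le_mul_of_nonneg_left (norm_pow_apply_le hE hθ n _)
        (norm_nonneg _)))
  let A : ℂ → Matrix (Fin k) (Fin k) ℂ := fun z =>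
    1 - z • Matrix.of fun i j => ∑' n, z ^ n • (a n i j : ℂ)
  have hA : ∀ i j, DifferentiableOn ℂ (fun z => A z i j) (ball 0 R) := fun i j => by
    simp only [A, Matrix.sub_apply, Matrix.smul_apply, Matrix.of_apply]
    exact (differentiableOn_const _).sub
      (differentiableOn_id.smul (differentiableOn_series hθ hR.le hθR (ha i j)))
  have hadj : ∀ i j, DifferentiableOn ℂ (fun z => (A z).adjugate i j) (ball 0 R) := fun i j => by
    simp only [Matrix.adjugate_apply]
    refine differentiableOn_det fun p q => ?_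
    simp only [Matrix.updateRow_apply]
    split_ifs
    · exact differentiableOn_const _
    · exact hA p q
  let N : Fin k → ℂ → (X →L[ℝ] ℂ) := fun i z =>
    ∑ j, (A z).adjugate i j • ∑' n, z ^ n • g n j
  have hN : ∀ i, DifferentiableOn ℂ (N i) (ball 0 R) := fun i =>
    DifferentiableOn.fun_sum fun j _ =>
      (hadj i j).smul (differentiableOn_series hθ hR.le hθR (hg j))
  have hA0 : A 0 = 1 := by simp [A]
  choose s hs using fun i => exists_division_conditions hrR (one_div_pos.2 hθ''.2.2).le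
    (differentiableOn_det hA) (hN i) (by rw [hA0, Matrix.det_one]; exact one_ne_zero)
  let S := Finset.univ.biUnion s
  refine ⟨S.card, ContinuousLinearMap.pi fun w => (S.equivFin.symm w).1, fun x hx => ?_⟩
  let e : (X →L[ℝ] ℂ) →L[ℂ] ℂ := LinearMap.mkContinuous
    { toFun := fun f => f x, map_add' := fun f f' => rfl, map_smul' := fun c f => rfl } ‖x‖
    fun f => by rw [mul_comm]; exact f.le_opNorm x
  have he : ∀ f, e f = f x := fun f => rfl
  have hker : ∀ i, ∀ w ∈ s i, e w = 0 := fun i w hw =>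
    (he w).trans (by simpa using congrFun hx (S.equivFin ⟨w, mem_biUnion.2 ⟨i, mem_univ i, hw⟩⟩))
  choose h hd hq using fun i => hs i e (hker i)
  -- the generating function of `L (B ^ n x)`
  let H : ℕ → Fin k → ℂ := fun n i => (L ((B ^ n) x) i : ℂ)
  let K := max ‖B‖ θ + 1
  have hK : ‖B‖ < K ∧ θ < K ∧ 0 < K := by
    refine ⟨?_, ?_, ?_⟩ <;> simp only [K] <;>
      linarith [le_max_left ‖B‖ θ, le_max_right ‖B‖ θ, norm_nonneg B]
  have hH : ∀ i n, ‖H n i‖ ≤ ‖L‖ * ‖x‖ * ‖B‖ ^ n := fun i n => by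
    simp only [H, Complex.norm_real]
    rw [mul_assoc, mul_comm ‖x‖]
    exact (norm_le_pi_norm _ i).trans ((L.le_opNorm _).trans (mul_le_mul_of_nonneg_left
      (norm_pow_apply_le (fun y => B.le_opNorm y) (norm_nonneg _) n x) (norm_nonneg _)))
  have hrec : ∀ n i, H n i =
      g n i x + ∑ m ∈ range n, ∑ j, (a (n - 1 - m) i j : ℂ) * H m j := by
    intro n i
    have hBE : ∀ y, (B - E) y = U (L y) := fun y => by simp [hB]
    have hU : ∀ v : Fin k → ℝ, U v = ∑ j, v j • U (Pi.single j 1) := fun v => by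
      conv_lhs => rw [show v = ∑ j, v j • (Pi.single j (1 : ℝ) : Fin k → ℝ) by
        funext l; simp [Finset.sum_apply, Pi.single_apply]]
      simp [map_sum]
    have h0 := congrArg (fun y => L y i) (pow_apply_eq B E n x)
    simp only [map_add, map_sum, Pi.add_apply, Finset.sum_apply, hBE] at h0
    simp only [H, g]
    rw [h0]
    simp only [Complex.ofReal_add, Complex.ofReal_sum, Complex.ofReal_mul]
    refine congrArg₂ (· + ·) rfl (sum_congr rfl fun m _ => ?_)
    rw [hU, map_sum, map_sum, Finset.sum_apply]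
    simp only [Complex.ofReal_add, Complex.ofReal_sum, Complex.ofReal_mul]
    refine sum_congr rfl fun j _ => ?_
    simp only [map_smul, Pi.smul_apply, smul_eq_mul, a]
    simp only [Complex.ofReal_add, Complex.ofReal_sum, Complex.ofReal_mul]
    ring
  have hsmall : ∀ᶠ z in 𝓝 (0 : ℂ), ∀ i, HasSum (fun n => z ^ n • H n i) (h i z) := by
    have hball : ∀ᶠ z in 𝓝 (0 : ℂ), z ∈ ball (0 : ℂ) (min r (1 / K)) :=
      ball_mem_nhds _ (lt_min (one_div_pos.2 hθ''.2.2) (one_div_pos.2 hK.2.2))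
    have hne : ∀ᶠ z in 𝓝 (0 : ℂ), (A z).det ≠ 0 := by
      refine ContinuousAt.eventually_ne ?_ (by rw [hA0, Matrix.det_one]; exact one_ne_zero)
      exact ((differentiableOn_det hA).differentiableAt (ball_mem_nhds _ hR)).continuousAt
    filter_upwards [hball, hne] with z hz hdz i
    have hzK : ‖z‖ * K < 1 := by
      rw [← lt_div_iff₀ hK.2.2]
      exact (mem_ball_zero_iff.1 hz).trans_le (min_le_right _ _)
    have hzr : z ∈ ball (0 : ℂ) r := ball_subset_ball (min_le_left _ _) hz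
    have sumH : ∀ i, Summable fun n => ‖z ^ n • H n i‖ := fun i =>
      Summable.of_nonneg_of_le (fun n => norm_nonneg _) (fun n => by
        rw [norm_smul, norm_pow]
        calc ‖z‖ ^ n * ‖H n i‖ ≤ ‖z‖ ^ n * (‖L‖ * ‖x‖ * K ^ n) :=
              mul_le_mul_of_nonneg_left ((hH i n).trans (mul_le_mul_of_nonneg_left
                (pow_le_pow_left₀ (norm_nonneg _) hK.1.le n) (by positivity))) (by positivity)
          _ = ‖L‖ * ‖x‖ * (‖z‖ * K) ^ n := by rw [mul_pow]; ring)
        ((summable_geometric_of_lt_one (mul_nonneg (norm_nonneg z) hK.2.2.le) hzK).mul_left _)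
    have suma : ∀ i j, Summable fun n => ‖z ^ n • (a n i j : ℂ)‖ := fun i j =>
      Summable.of_nonneg_of_le (fun n => norm_nonneg _) (fun n => by
        rw [norm_smul, norm_pow]
        calc ‖z‖ ^ n * ‖(a n i j : ℂ)‖
            ≤ ‖z‖ ^ n * (‖L‖ * ‖U (Pi.single j 1)‖ * K ^ n) :=
              mul_le_mul_of_nonneg_left ((ha i j n).trans (mul_le_mul_of_nonneg_left
                (pow_le_pow_left₀ hθ hK.2.1.le n) (by positivity))) (by positivity)
          _ = ‖L‖ * ‖U (Pi.single j 1)‖ * (‖z‖ * K) ^ n := by rw [mul_pow]; ring)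
        ((summable_geometric_of_lt_one (mul_nonneg (norm_nonneg z) hK.2.2.le) hzK).mul_left _)
    have sumg : ∀ j, Summable fun n => z ^ n • g n j := fun j =>
      Summable.of_norm (Summable.of_nonneg_of_le (fun n => norm_nonneg _) (fun n => by
        rw [norm_smul, norm_pow]
        calc ‖z‖ ^ n * ‖g n j‖ ≤ ‖z‖ ^ n * (‖L‖ * K ^ n) :=
              mul_le_mul_of_nonneg_left ((hg j n).trans (mul_le_mul_of_nonneg_left
                (pow_le_pow_left₀ hθ hK.2.1.le n) (by positivity))) (by positivity)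
          _ = ‖L‖ * (‖z‖ * K) ^ n := by rw [mul_pow]; ring)
        ((summable_geometric_of_lt_one (mul_nonneg (norm_nonneg z) hK.2.2.le) hzK).mul_left _))
    let G : Fin k → ℂ := fun j => e (∑' n, z ^ n • g n j)
    let Hz : Fin k → ℂ := fun i => ∑' n, z ^ n • H n i
    have hG : ∀ j, HasSum (fun n => z ^ n • g n j x) (G j) := fun j =>
      (sumg j).hasSum.mapL e
    have heq : (A z).mulVec Hz = G := by
      funext i
      have hconv : ∀ j, HasSum
          (fun n => z ^ n * (z * ∑ m ∈ range (n + 1), (a (n - m) i j : ℂ) * H m j))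
          (z * (∑' n, z ^ n • (a n i j : ℂ)) * Hz j) := by
        intro j
        have hp := (hasSum_sum_range_mul_of_summable_norm' (suma i j) (suma i j).of_norm
          (sumH j) (sumH j).of_norm).mul_left z
        rw [← mul_assoc] at hp
        rw [← (Equiv.refl ℕ).hasSum_iff]
        refine hp.congr_fun fun n => ?_
        rw [← sum_range_reflect]
        simp only [mul_sum, Function.comp_apply, Equiv.refl_apply]
        refine sum_congr rfl fun m hm => ?_
        rw [mem_range] at hm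
        simp only [smul_eq_mul, Nat.add_sub_cancel]
        rw [show n = (n - m) + m by omega, pow_add, show n - m + m - m = n - m by omega,
          show n - m + m - (n - m) = m by omega]
        ring
      have hshift : HasSum (fun n => z ^ n • (H n i - g n i x))
          (∑ j, z * (∑' n, z ^ n • (a n i j : ℂ)) * Hz j) := by
        rw [← hasSum_nat_add_iff' 1]
        have h0 : H 0 i - g 0 i x = 0 := by rw [hrec 0 i]; simp
        simp only [range_one, sum_singleton, h0, smul_zero, sub_zero]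
        refine (hasSum_sum fun j (_ : j ∈ univ) => hconv j).congr_fun fun n => ?_
        rw [hrec (n + 1) i, add_sub_cancel_left, smul_eq_mul, sum_comm]
        simp only [mul_sum, Nat.add_sub_cancel, pow_succ]
        exact sum_congr rfl fun j _ => sum_congr rfl fun m _ => by ring
      have htot := hshift.add (hG i)
      simp only [← smul_add, sub_add_cancel] at htot
      have hHi : Hz i = ∑ j, z * (∑' n, z ^ n • (a n i j : ℂ)) * Hz j + G i :=
        htot.tsum_eq
      simp only [Matrix.mulVec, dotProduct, A, Matrix.sub_apply, Matrix.smul_apply,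
        Matrix.of_apply, sub_mul, sum_sub_distrib, smul_eq_mul]
      rw [show ∑ j, (1 : Matrix (Fin k) (Fin k) ℂ) i j * Hz j = Hz i by
        simp [Matrix.one_apply]]
      simp only [smul_eq_mul] at hHi ⊢
      linear_combination hHi
    have hdet : (A z).det • Hz = (A z).adjugate.mulVec G := by
      rw [← heq, Matrix.mulVec_mulVec, Matrix.adjugate_mul, Matrix.smul_mulVec,
        Matrix.one_mulVec]
    have hi : (A z).det * h i z = (A z).det * Hz i := by
      rw [hq i z hzr, ← smul_eq_mul, ← Pi.smul_apply, hdet]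
      simp only [Matrix.mulVec, dotProduct, N, map_sum, map_smul, smul_eq_mul, G]
    rw [mul_left_cancel₀ hdz hi]
    exact (sumH i).of_norm.hasSum
  -- Cauchy estimates
  let r₀ : NNReal := ⟨1 / ρ, (one_div_pos.2 hρ0).le⟩
  let r₁ : NNReal := ⟨(1 / ρ + r) / 2, by linarith [(one_div_pos.2 hρ0)]⟩
  have hr₀₁ : r₀ < r₁ := by
    show (1 / ρ : ℝ) < (1 / ρ + r) / 2
    linarith
  have hr₁ : 0 < r₁ := lt_of_le_of_lt zero_le hr₀₁
  have hcl : closedBall (0 : ℂ) r₁ ⊆ ball 0 r := closedBall_subset_ball (by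
    show ((1 / ρ + r) / 2 : ℝ) < r
    linarith)
  have hbound : ∀ i, ∃ C, ∀ n, ‖H n i‖ ≤ C * ρ ^ n := by
    intro i
    have hp := ((hd i).mono hcl).hasFPowerSeriesOnBall hr₁
    set p := cauchyPowerSeries (h i) 0 r₁
    have hq' : HasFPowerSeriesAt (h i) (FormalMultilinearSeries.ofScalars ℂ fun n => H n i) 0 := by
      rw [hasFPowerSeriesAt_iff]
      filter_upwards [hsmall] with z hz
      simpa [FormalMultilinearSeries.coeff_ofScalars] using hz i
    obtain ⟨C, -, hC⟩ := p.norm_le_div_pow_of_pos_of_lt_radius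
      (r := r₀) (NNReal.coe_pos.1 (show (0 : ℝ) < 1 / ρ from one_div_pos.2 hρ0))
      (lt_of_lt_of_le (ENNReal.coe_lt_coe.2 hr₀₁) hp.r_le)
    refine ⟨C, fun n => ?_⟩
    have := hC n
    rw [hp.hasFPowerSeriesAt.eq_formalMultilinearSeries hq',
      FormalMultilinearSeries.ofScalars_norm] at this
    refine this.trans (le_of_eq ?_)
    show C / (1 / ρ) ^ n = C * ρ ^ n
    rw [one_div, inv_pow, div_inv_eq_mul]
  choose C hC using hbound
  let C' := ∑ i, max (C i) 0
  have hC' : ∀ m, ‖L ((B ^ m) x)‖ ≤ C' * ρ ^ m := fun m => by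
    refine (pi_norm_le_iff_of_nonneg (by positivity)).2 fun i => ?_
    have h1 : C i ≤ C' := (le_max_left _ 0).trans
      (single_le_sum (f := fun l => max (C l) 0) (fun l _ => le_max_right _ _) (mem_univ i))
    have h2 := hC i m
    simp only [H, Complex.norm_real] at h2
    exact h2.trans (mul_le_mul_of_nonneg_right h1 (pow_nonneg hρ0.le m))
  refine ⟨‖x‖ + ‖U‖ * C' / (ρ - θ), fun n => ?_⟩
  rw [pow_apply_eq B E n x]
  refine (norm_add_le _ _).trans ?_
  rw [add_mul]
  refine add_le_add ((norm_pow_apply_le hE hθ n x).trans (by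
    rw [mul_comm]; exact mul_le_mul_of_nonneg_left (pow_le_pow_left₀ hθ hρ.le n)
      (norm_nonneg _))) ((norm_sum_le _ _).trans ?_)
  calc ∑ m ∈ range n, ‖(E ^ (n - 1 - m)) ((B - E) ((B ^ m) x))‖
      ≤ ∑ m ∈ range n, ‖U‖ * C' * (θ ^ (n - 1 - m) * ρ ^ m) := by
        refine sum_le_sum fun m _ => (norm_pow_apply_le hE hθ _ _).trans ?_
        rw [show (B - E) ((B ^ m) x) = U (L ((B ^ m) x)) by simp [hB]]
        calc θ ^ (n - 1 - m) * ‖U (L ((B ^ m) x))‖
            ≤ θ ^ (n - 1 - m) * (‖U‖ * (C' * ρ ^ m)) :=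
              mul_le_mul_of_nonneg_left ((U.le_opNorm _).trans
                (mul_le_mul_of_nonneg_left (hC' m) (norm_nonneg _))) (pow_nonneg hθ _)
          _ = ‖U‖ * C' * (θ ^ (n - 1 - m) * ρ ^ m) := by ring
    _ ≤ ‖U‖ * C' * (ρ ^ n / (ρ - θ)) := by
        rw [← mul_sum]
        exact mul_le_mul_of_nonneg_left (sum_pow_mul_le hθ hρ n)
          (mul_nonneg (norm_nonneg _) (sum_nonneg fun i _ => le_max_right _ _))
    _ = ‖U‖ * C' / (ρ - θ) * ρ ^ n := by ring

end Vale.Agent.P264.Abstract
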