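import Vale.Agent.P264.Abstract.Targets
import Vale.Agent.P264.Abstract.Renewal

/-!
# P264: finite codimension splitting with invariant complement

If `B = B Pi + B (1 - Pi)` with `Pi` of finite rank and `‖B (1 - Pi)‖ ≤ θ`, then above every rate
`a ∈ [θ, 1)` there are rates `ρ < ρ1 < ρ2` with a `Splitting` of `B` of rates `(ρ, ρ2)`.
-/

namespace Vale.Agent.P264.Abstract

open Filter Topology Finset

attribute [-simp] pow_apply_eq_iterate FunLike.coe_pow_eq_iterate

variable {H : Type*} [NormedAddCommGroup H] [NormedSpace ℝ H]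

theorem slow_mono (B : H →L[ℝ] H) {ρ ρ' : ℝ} (h0 : 0 ≤ ρ) (h : ρ ≤ ρ') :
    slow B ρ ≤ slow B ρ' := by
  rintro x ⟨C, hC⟩
  refine ⟨max C 0, fun n => (hC n).trans ?_⟩
  exact mul_le_mul (le_max_left _ _) (pow_le_pow_left₀ h0 h n) (pow_nonneg h0 n) (le_max_right _ _)

theorem slow_invariant (B : H →L[ℝ] H) {ρ : ℝ} {x : H} (hx : x ∈ slow B ρ) :
    B x ∈ slow B ρ := by
  obtain ⟨C, hC⟩ := hx
  refine ⟨C * ρ, fun n => ?_⟩
  have := hC (n + 1)
  rw [pow_succ B, mul_apply_eq_comp, pow_succ] at this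
  linarith

/-- Above the rate `θ` the slow subspaces are closed and of finite codimension. -/
theorem slow_closed_cofinite (B Pr : H →L[ℝ] H) {θ ρ : ℝ} (hθ : 0 ≤ θ) (hρ : θ < ρ)
    (hfin : FiniteDimensional ℝ (LinearMap.range Pr.toLinearMap))
    (hB : ∀ v, ‖B (v - Pr v)‖ ≤ θ * ‖v‖) :
    IsClosed (slow B ρ : Set H) ∧ FiniteDimensional ℝ (H ⧸ slow B ρ) := by
  let W := LinearMap.range Pr.toLinearMap
  let e : W ≃L[ℝ] (Fin (Module.finrank ℝ W) → ℝ) :=
    (Module.finBasis ℝ W).equivFun.toContinuousLinearEquiv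
  let L : H →L[ℝ] (Fin (Module.finrank ℝ W) → ℝ) :=
    e.toContinuousLinearMap.comp (Pr.codRestrict W fun v => LinearMap.mem_range_self _ v)
  let U : (Fin (Module.finrank ℝ W) → ℝ) →L[ℝ] H :=
    B.comp (W.subtypeL.comp e.symm.toContinuousLinearMap)
  let E : H →L[ℝ] H := B.comp (ContinuousLinearMap.id ℝ H - Pr)
  have hE : ∀ x, ‖E x‖ ≤ θ * ‖x‖ := fun x => by simpa [E] using hB x
  obtain ⟨n, φ, hφ⟩ := exists_conditions L U hθ hρ hE
  have hEU : E + U.comp L = B := by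
    ext x; simp [E, U, L]
  rw [hEU] at hφ
  constructor
  · have : (slow B ρ : Set H) = φ ⁻¹' ((slow B ρ).map φ.toLinearMap : Set (Fin n → ℂ)) := by
      ext x
      refine ⟨fun hx => ⟨x, hx, rfl⟩, ?_⟩
      rintro ⟨y, hy, hxy⟩
      have : x - y ∈ slow B ρ := hφ (by simpa [sub_eq_zero] using hxy.symm)
      simpa using (slow B ρ).add_mem this hy
    rw [this]
    exact (Submodule.closed_of_finiteDimensional _).preimage φ.continuous
  · have : FiniteDimensional ℝ (H ⧸ φ.ker) :=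
      φ.toLinearMap.quotKerEquivRange.symm.finiteDimensional
    exact Module.Finite.of_surjective (Submodule.factor hφ) (Submodule.factor_surjective hφ)

/-- If a quotient map `T` has no orbit decaying like `ρ3`, its powers expand faster than any
smaller rate. -/
theorem expand_of_no_decay {d : ℕ} (T : (Fin d → ℝ) →L[ℝ] (Fin d → ℝ)) {r ρ3 : ℝ} (hr : 0 < r)
    (hr3 : r < ρ3)
    (hT : ∀ u K, (∀ n : ℕ, ‖(T ^ n) u‖ ≤ K * ρ3 ^ n) → u = 0) :
    ∃ Ti : (Fin d → ℝ) →L[ℝ] (Fin d → ℝ), ∃ K : ℝ, 0 < K ∧ (∀ u, T (Ti u) = u) ∧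
      (∀ u, Ti (T u) = u) ∧ ∀ u, ∀ n : ℕ, ‖(Ti ^ n) u‖ ≤ K * (r⁻¹) ^ n * ‖u‖ := by
  classical
  have h3 : 0 < ρ3 := hr.trans hr3
  have hinj : Function.Injective T.toLinearMap := by
    rw [← LinearMap.ker_eq_bot, LinearMap.ker_eq_bot']
    intro u hu
    refine hT u ‖u‖ fun n => ?_
    cases n with
    | zero => simp
    | succ n =>
      rw [pow_succ T, mul_apply_eq_comp]
      simp only [ContinuousLinearMap.coe_coe] at hu
      rw [hu, map_zero, norm_zero]
      positivity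
  let Te := LinearEquiv.ofBijective T.toLinearMap
    ⟨hinj, LinearMap.injective_iff_surjective.1 hinj⟩
  let Ti : (Fin d → ℝ) →L[ℝ] (Fin d → ℝ) := LinearMap.toContinuousLinearMap Te.symm.toLinearMap
  have hTTi : ∀ u, T (Ti u) = u := fun u => Te.apply_symm_apply u
  have hTiT : ∀ u, Ti (T u) = u := fun u => Te.symm_apply_apply u
  -- complexification
  let M : Matrix (Fin d) (Fin d) ℂ := (LinearMap.toMatrix' Ti.toLinearMap).map (fun x => (x : ℂ))
  let Φ := Module.End.toContinuousLinearMap (𝕜 := ℂ) (E := Fin d → ℂ)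
  let Sc : (Fin d → ℂ) →L[ℂ] (Fin d → ℂ) := Φ (Matrix.toLin' M)
  have hSc : ∀ v, Sc v = M.mulVec v := fun v => rfl
  have hre : ∀ v : Fin d → ℂ, (fun i => (Sc v i).re) = Ti (fun i => (v i).re) := fun v => by
    have h : Ti (fun i => (v i).re) =
        (LinearMap.toMatrix' Ti.toLinearMap).mulVec (fun i => (v i).re) := by
      rw [← Matrix.toLin'_apply, Matrix.toLin'_toMatrix']; rfl
    rw [h]
    funext i
    simp [hSc, M, Matrix.mulVec, dotProduct, Complex.mul_re]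
  have hspec : ∀ k ∈ spectrum ℂ Sc, ‖k‖ ≤ 1 / ρ3 := by
    intro k hk
    by_contra hlt
    rw [not_le] at hlt
    rw [AlgEquiv.spectrum_eq Φ, ← Module.End.hasEigenvalue_iff_mem_spectrum] at hk
    obtain ⟨v, hv⟩ := hk.exists_hasEigenvector
    have hv1 : Sc v = k • v := hv.apply_eq_smul
    have hk0 : k ≠ 0 := fun h => by
      rw [h, norm_zero] at hlt; linarith [one_div_pos.2 h3]
    have hstep : ∀ c : ℂ, T (fun i => ((c • v) i).re) = fun i => ((k⁻¹ * c) • v) i |>.re := by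
      intro c
      have h := hre ((k⁻¹ * c) • v)
      rw [map_smul, hv1, smul_smul, show k⁻¹ * c * k = c by field_simp] at h
      rw [h, hTTi]
    have hiter : ∀ (c : ℂ) (n : ℕ),
        (T ^ n) (fun i => ((c • v) i).re) = fun i => (((k⁻¹) ^ n * c) • v) i |>.re := by
      intro c n
      induction n with
      | zero => simp
      | succ n ih =>
        rw [pow_succ' T, mul_apply_eq_comp, ih, hstep, pow_succ', mul_assoc]
    have hzero : ∀ c : ℂ, (fun i => ((c • v) i).re) = 0 := by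
      intro c
      refine hT _ (‖c‖ * ‖v‖) fun n => ?_
      rw [hiter]
      refine (pi_norm_le_iff_of_nonneg (by positivity)).2 fun i => ?_
      refine (Complex.abs_re_le_norm _).trans ?_
      rw [Pi.smul_apply, smul_eq_mul, norm_mul, norm_mul, norm_pow, norm_inv]
      calc ‖k‖⁻¹ ^ n * ‖c‖ * ‖v i‖ ≤ ρ3 ^ n * ‖c‖ * ‖v‖ := by
            gcongr
            · exact (inv_le_comm₀ (norm_pos_iff.2 hk0) h3).2 (by rw [← one_div]; exact hlt.le)
            · exact norm_le_pi_norm v i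
        _ = ‖c‖ * ‖v‖ * ρ3 ^ n := by ring
    refine hv.2 (funext fun i => Complex.ext ?_ ?_)
    · simpa using congrFun (hzero 1) i
    · simpa using congrFun (hzero Complex.I) i
  have hrad : spectralRadius ℂ Sc ≤ ENNReal.ofReal (1 / ρ3) := by
    refine iSup₂_le fun k hk => ?_
    rw [← enorm_eq_nnnorm, ← ofReal_norm]
    exact ENNReal.ofReal_le_ofReal (hspec k hk)
  have hlt : spectralRadius ℂ Sc < ENNReal.ofReal r⁻¹ := hrad.trans_lt
    ((ENNReal.ofReal_lt_ofReal_iff (inv_pos.2 hr)).2 (by rw [one_div]; exact inv_strictAnti₀ hr hr3))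
  obtain ⟨N, hN⟩ := eventually_atTop.1
    ((spectrum.pow_nnnorm_pow_one_div_tendsto_nhds_spectralRadius Sc).eventually_lt_const hlt)
  let K := 1 + ∑ n ∈ range (N + 1), ‖Sc ^ n‖ * r ^ n
  have hK1 : 0 ≤ ∑ n ∈ range (N + 1), ‖Sc ^ n‖ * r ^ n := sum_nonneg fun n _ => by positivity
  have hbd : ∀ n, ‖Sc ^ n‖ ≤ K * r⁻¹ ^ n := by
    intro n
    rcases le_or_gt n N with hn | hn
    · have := single_le_sum (f := fun n => ‖Sc ^ n‖ * r ^ n) (fun i _ => by positivity)
        (mem_range.2 (Nat.lt_succ_of_le hn))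
      rw [inv_pow, ← div_eq_mul_inv, le_div_iff₀ (pow_pos hr n)]
      simp only [K]
      linarith
    · have h := hN n hn.le
      have hn0 : (n : ℝ) ≠ 0 := Nat.cast_ne_zero.2 (by omega)
      have h2 := ENNReal.rpow_lt_rpow h (show (0 : ℝ) < n by positivity)
      rw [← ENNReal.rpow_mul, one_div, inv_mul_cancel₀ hn0, ENNReal.rpow_one,
        ENNReal.rpow_natCast, ← ENNReal.ofReal_pow (inv_nonneg.2 hr.le), ← enorm_eq_nnnorm,
        ← ofReal_norm, ENNReal.ofReal_lt_ofReal_iff (by positivity)] at h2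
      refine h2.le.trans (le_mul_of_one_le_left (by positivity) ?_)
      simp only [K]
      linarith
  refine ⟨Ti, K, by simp only [K]; linarith, hTTi, hTiT, fun u n => ?_⟩
  let w : Fin d → ℂ := fun i => (u i : ℂ)
  have hn : ∀ n : ℕ, (fun i => ((Sc ^ n) w i).re) = (Ti ^ n) u := by
    intro n
    induction n with
    | zero => funext i; simp [w]
    | succ n ih =>
      rw [pow_succ' Ti, mul_apply_eq_comp, ← ih, ← hre, pow_succ', mul_apply_eq_comp]
  have hw : ‖w‖ ≤ ‖u‖ := (pi_norm_le_iff_of_nonneg (norm_nonneg u)).2 fun i => by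
    simpa [w] using norm_le_pi_norm u i
  rw [← hn]
  refine (pi_norm_le_iff_of_nonneg (by simp only [K]; positivity)).2 fun i => ?_
  calc ‖((Sc ^ n) w i).re‖ ≤ ‖(Sc ^ n) w i‖ := Complex.abs_re_le_norm _
    _ ≤ ‖(Sc ^ n) w‖ := norm_le_pi_norm _ i
    _ ≤ ‖Sc ^ n‖ * ‖w‖ := (Sc ^ n).le_opNorm w
    _ ≤ K * r⁻¹ ^ n * ‖u‖ := mul_le_mul (hbd n) hw (norm_nonneg _) (by simp only [K]; positivity)

/-- Finite codimension splitting with invariant complement, rates in `(a, 1)`. -/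
theorem split [CompleteSpace H] (B Pr : H →L[ℝ] H) (θ a : ℝ) (hθ : 0 ≤ θ) (hθa : θ ≤ a)
    (ha : a < 1) (hfin : FiniteDimensional ℝ (LinearMap.range Pr.toLinearMap))
    (hB : ∀ v, ‖B (v - Pr v)‖ ≤ θ * ‖v‖) :
    ∃ ρ ρ1 ρ2 : ℝ, a < ρ ∧ ρ < ρ1 ∧ ρ1 < ρ2 ∧ ρ2 < 1 ∧ Nonempty (Splitting H B ρ ρ2) := by
  classical
  have hex : ∃ n, ∃ ρ ∈ Set.Ioo a 1, Module.finrank ℝ (H ⧸ slow B ρ) = n :=
    ⟨_, (a + 1) / 2, ⟨by linarith, by linarith⟩, rfl⟩
  obtain ⟨ρ, ⟨haρ, hρ1⟩, hρn⟩ := Nat.find_spec hex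
  have hρ0 : 0 < ρ := lt_of_le_of_lt (hθ.trans hθa) haρ
  have hmin : ∀ ρ3, ρ ≤ ρ3 → ρ3 < 1 → slow B ρ3 ≤ slow B ρ := by
    intro ρ3 h h1
    have hle := slow_mono B hρ0.le h
    have f1 := (slow_closed_cofinite B Pr hθ (hθa.trans_lt haρ) hfin hB).2
    have f2 := (slow_closed_cofinite B Pr hθ (show θ < ρ3 by linarith) hfin hB).2
    have hsurj : Function.Surjective (Submodule.factor hle) := Submodule.factor_surjective hle
    have hlow : Module.finrank ℝ (H ⧸ slow B ρ) ≤ Module.finrank ℝ (H ⧸ slow B ρ3) := by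
      rw [hρn]; exact Nat.find_min' hex ⟨ρ3, ⟨by linarith, h1⟩, rfl⟩
    have heq : Module.finrank ℝ (H ⧸ slow B ρ) = Module.finrank ℝ (H ⧸ slow B ρ3) :=
      le_antisymm hlow (LinearMap.finrank_le_finrank_of_surjective hsurj)
    intro x hx
    have hinj := (LinearMap.injective_iff_surjective_of_finrank_eq_finrank heq).2 hsurj
    rw [← Submodule.Quotient.mk_eq_zero (slow B ρ)]
    refine hinj ?_
    simpa using hx
  obtain ⟨hclosed, hquot⟩ := slow_closed_cofinite B Pr hθ (hθa.trans_lt haρ) hfin hB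
  let S := slow B ρ
  have : IsClosed (S : Set H) := hclosed
  have : CompleteSpace S := hclosed.completeSpace_coe
  -- uniform decay on `S`
  obtain ⟨C0, hC0⟩ : ∃ C, ∀ n : ℕ, ‖(ρ ^ n)⁻¹ • (B ^ n).comp S.subtypeL‖ ≤ C := by
    refine banach_steinhaus fun x => ?_
    obtain ⟨C, hC⟩ := x.2
    refine ⟨C, fun n => ?_⟩
    simp only [smul_apply, ContinuousLinearMap.comp_apply,
      Submodule.subtypeL_apply, norm_smul, norm_inv, norm_pow, Real.norm_eq_abs,
      abs_of_pos hρ0]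
    rw [inv_mul_le_iff₀ (pow_pos hρ0 n), mul_comm]
    exact hC n
  let C := max C0 1
  have hC : ∀ x ∈ S, ∀ n : ℕ, ‖(B ^ n) x‖ ≤ C * ρ ^ n * ‖x‖ := by
    intro x hx n
    have h := ((ρ ^ n)⁻¹ • (B ^ n).comp S.subtypeL).le_of_opNorm_le
      ((hC0 n).trans (le_max_left C0 1)) ⟨x, hx⟩
    simp only [smul_apply, ContinuousLinearMap.comp_apply,
      Submodule.subtypeL_apply, norm_smul, norm_inv, norm_pow, Real.norm_eq_abs, abs_of_pos hρ0,
      Submodule.coe_norm] at h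
    rw [inv_mul_le_iff₀ (pow_pos hρ0 n)] at h
    linarith
  -- coordinates on the quotient
  let d := Module.finrank ℝ (H ⧸ S)
  let e : (H ⧸ S) ≃ₗ[ℝ] (Fin d → ℝ) := (Module.finBasis ℝ (H ⧸ S)).equivFun
  let P : H →L[ℝ] (Fin d → ℝ) := (LinearMap.toContinuousLinearMap e.toLinearMap).comp S.mkQL
  have hPker : ∀ x, P x = 0 ↔ x ∈ S := fun x => by
    simp [P, Submodule.Quotient.mk_eq_zero]
  have hPsurj : Function.Surjective P := e.surjective.comp (Submodule.Quotient.mk_surjective S)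
  obtain ⟨σ0, hσ0'⟩ := P.exists_rightInverse_of_surjective (LinearMap.range_eq_top.2 hPsurj)
  have hσ0 : ∀ u, P (σ0 u) = u := fun u => DFunLike.congr_fun hσ0' u
  let T : (Fin d → ℝ) →L[ℝ] (Fin d → ℝ) := P.comp (B.comp σ0)
  have hint : ∀ v, P (B v) = T (P v) := by
    intro v
    have h : B (v - σ0 (P v)) ∈ S :=
      slow_invariant B ((hPker _).1 (by rw [map_sub, hσ0, sub_self]))
    rw [← hPker, map_sub, map_sub, sub_eq_zero] at h
    exact h
  let D : (Fin d → ℝ) →L[ℝ] H := B.comp σ0 - σ0.comp T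
  have hD : ∀ u, D u ∈ S := fun u => (hPker _).1 (by simp [D, T, hσ0])
  let ρ3 := (ρ + 1) / 2
  let ρ1 := (2 * ρ + ρ3) / 3
  let ρ2 := (ρ + 2 * ρ3) / 3
  have hord : ρ < ρ1 ∧ ρ1 < ρ2 ∧ ρ2 < ρ3 ∧ ρ3 < 1 ∧ 0 < ρ2 := by
    refine ⟨?_, ?_, ?_, ?_, ?_⟩ <;> simp only [ρ1, ρ2, ρ3] <;> linarith
  obtain ⟨hρρ1, hρ12, hρ23, hρ31, hρ20⟩ := hord
  have hρ2lt : ρ < ρ2 := hρρ1.trans hρ12
  have hρρ3 : ρ < ρ3 := hρ2lt.trans hρ23
  have hnd : ∀ u K, (∀ n : ℕ, ‖(T ^ n) u‖ ≤ K * ρ3 ^ n) → u = 0 := by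
    intro u K hK
    have hK0 : 0 ≤ K := by simpa using (norm_nonneg _).trans (hK 0)
    have hz : ∀ n : ℕ, (B ^ n) (σ0 u) =
        σ0 ((T ^ n) u) + ∑ m ∈ range n, (B ^ (n - 1 - m)) (D ((T ^ m) u)) := by
      intro n
      induction n with
      | zero => simp
      | succ n ih =>
        rw [pow_succ' B, mul_apply_eq_comp, ih, map_add, map_sum, sum_range_succ,
          Nat.add_sub_cancel, Nat.sub_self, pow_zero, one_apply_eq_self, pow_succ' T,
          mul_apply_eq_comp]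
        have hs : ∀ m ∈ range n, (B ^ (n - m)) (D ((T ^ m) u)) =
            B ((B ^ (n - 1 - m)) (D ((T ^ m) u))) := fun m hm => by
          rw [mem_range] at hm
          rw [show n - m = n - 1 - m + 1 by omega, pow_succ', mul_apply_eq_comp]
        rw [sum_congr rfl hs]
        simp [D]
        abel
    have hslow : σ0 u ∈ slow B ρ3 := by
      refine ⟨‖σ0‖ * K + C * ‖D‖ * K / (ρ3 - ρ), fun n => ?_⟩
      rw [hz n, add_mul]
      refine (norm_add_le _ _).trans (add_le_add ?_ ((norm_sum_le _ _).trans ?_))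
      · rw [mul_assoc]
        exact (σ0.le_opNorm _).trans (mul_le_mul_of_nonneg_left (hK n) (norm_nonneg _))
      · calc ∑ m ∈ range n, ‖(B ^ (n - 1 - m)) (D ((T ^ m) u))‖
            ≤ ∑ m ∈ range n, C * ‖D‖ * K * (ρ ^ (n - 1 - m) * ρ3 ^ m) := by
              refine sum_le_sum fun m _ => (hC _ (hD _) _).trans ?_
              calc C * ρ ^ (n - 1 - m) * ‖D ((T ^ m) u)‖
                  ≤ C * ρ ^ (n - 1 - m) * (‖D‖ * (K * ρ3 ^ m)) :=
                    mul_le_mul_of_nonneg_left ((D.le_opNorm _).trans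
                      (mul_le_mul_of_nonneg_left (hK m) (norm_nonneg _))) (by positivity)
                _ = C * ‖D‖ * K * (ρ ^ (n - 1 - m) * ρ3 ^ m) := by ring
          _ ≤ C * ‖D‖ * K * (ρ3 ^ n / (ρ3 - ρ)) := by
              rw [← mul_sum]
              exact mul_le_mul_of_nonneg_left (sum_pow_mul_le hρ0.le hρρ3 n) (by positivity)
          _ = C * ‖D‖ * K / (ρ3 - ρ) * ρ3 ^ n := by ring
    have h0 := (hPker _).2 (hmin ρ3 hρρ3.le hρ31 hslow)
    rwa [hσ0] at h0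
  obtain ⟨Ti, K, hK, hTTi, hTiT, hTi⟩ := expand_of_no_decay T hρ20 hρ23 hnd
  -- the Sylvester series
  let term : ℕ → ((Fin d → ℝ) →L[ℝ] H) := fun i => (B ^ i).comp (D.comp (Ti ^ (i + 1)))
  have hsum : Summable term := by
    refine Summable.of_norm_bounded (g := fun i => C * ‖D‖ * K * ρ2⁻¹ * (ρ / ρ2) ^ i)
      ((summable_geometric_of_lt_one (by positivity) ((div_lt_one hρ20).2 hρ2lt)).mul_left _)
      fun i => ?_
    refine ContinuousLinearMap.opNorm_le_bound _ (by positivity) fun u => ?_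
    calc ‖(B ^ i) (D ((Ti ^ (i + 1)) u))‖ ≤ C * ρ ^ i * ‖D ((Ti ^ (i + 1)) u)‖ := hC _ (hD _) i
      _ ≤ C * ρ ^ i * (‖D‖ * (K * ρ2⁻¹ ^ (i + 1) * ‖u‖)) :=
          mul_le_mul_of_nonneg_left ((D.le_opNorm _).trans
            (mul_le_mul_of_nonneg_left (hTi u _) (norm_nonneg _))) (by positivity)
      _ = C * ‖D‖ * K * ρ2⁻¹ * (ρ / ρ2) ^ i * ‖u‖ := by
          rw [div_pow, inv_pow, pow_succ]; field_simp
  let Xo := ∑' i, term i
  have hXo : ∀ u, HasSum (fun i => (B ^ i) (D ((Ti ^ (i + 1)) u))) (Xo u) := fun u =>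
    hsum.hasSum.mapL (ContinuousLinearMap.apply ℝ H u)
  have hPX : ∀ u, P (Xo u) = 0 := fun u => by
    refine ((hXo u).mapL P).unique (hasSum_zero.congr_fun fun i => (hPker _).2 ?_)
    have hpow : ∀ x ∈ S, (B ^ i) x ∈ S := by
      induction i with
      | zero => exact fun x hx => by simpa using hx
      | succ i ih =>
        intro x hx
        rw [pow_succ' B, mul_apply_eq_comp]
        exact slow_invariant B (ih x hx)
    exact hpow _ (hD _)
  have hXT : ∀ u, Xo (T u) = D u + B (Xo u) := by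
    intro u
    have h1 : HasSum (fun i => (B ^ i) (D ((Ti ^ i) u))) (Xo (T u)) := by
      refine (hXo (T u)).congr_fun fun i => ?_
      rw [pow_succ Ti, mul_apply_eq_comp, hTiT]
    rw [← hasSum_nat_add_iff' 1] at h1
    simp only [sum_range_one, pow_zero, one_apply_eq_self] at h1
    have h2 := h1.unique ((hXo u).mapL B |>.congr_fun fun i => by
      rw [pow_succ' B, mul_apply_eq_comp])
    rw [← h2]; abel
  refine ⟨ρ, ρ1, ρ2, haρ, hρρ1, hρ12, hρ23.trans hρ31, ⟨{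
    d := d, P := P, σ := σ0 + Xo, T := T, C := C, c := K⁻¹
    C_pos := lt_of_lt_of_le one_pos (le_max_right _ _)
    c_pos := inv_pos.2 hK
    right_inv := fun u => by simp [hσ0, hPX]
    intertwine := hint
    invariant := fun u => ?_
    stable := fun v hv => hC v ((hPker v).1 hv)
    expand := fun u i => ?_ }⟩⟩
  · simp only [add_apply, map_add, hXT, D, sub_apply,
      ContinuousLinearMap.comp_apply]
    abel
  · have hinv : ∀ n : ℕ, ∀ u, (Ti ^ n) ((T ^ n) u) = u := by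
      intro n
      induction n with
      | zero => simp
      | succ n ih => intro u; rw [pow_succ Ti, pow_succ' T, mul_apply_eq_comp, mul_apply_eq_comp,
          hTiT, ih]
    have h := hTi ((T ^ i) u) i
    rw [hinv, inv_pow, ← div_eq_mul_inv, div_mul_eq_mul_div, le_div_iff₀ (pow_pos hρ20 i)] at h
    rw [mul_assoc, inv_mul_le_iff₀ hK]
    linarith

end Vale.Agent.P264.Abstract
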