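import Mathlib

/-!
Frozen interface of the abstract module: finite codimension splitting of a bounded operator `B`
with `B (1 - Pi)` a strict contraction, with invariant complement (`split`), and the discrete
trapping argument (`trap`).
-/

namespace Vale.Agent.P264.Abstract

/-- A splitting `P` onto a finite dimensional quotient with invariant section `σ`: on the quotient
the powers of `T` decay at most like `ρ' ^ i`, on `ker P` the powers of `B` decay at least like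
`ρ ^ i`. -/
structure Splitting (H : Type*) [NormedAddCommGroup H] [NormedSpace ℝ H] (B : H →L[ℝ] H)
    (ρ ρ' : ℝ) where
  d : ℕ
  P : H →L[ℝ] (Fin d → ℝ)
  σ : (Fin d → ℝ) →L[ℝ] H
  T : (Fin d → ℝ) →L[ℝ] (Fin d → ℝ)
  C : ℝ
  c : ℝ
  C_pos : 0 < C
  c_pos : 0 < c
  right_inv : ∀ u, P (σ u) = u
  intertwine : ∀ v, P (B v) = T (P v)
  invariant : ∀ u, B (σ u) = σ (T u)
  stable : ∀ v, P v = 0 → ∀ i : ℕ, ‖(B ^ i) v‖ ≤ C * ρ ^ i * ‖v‖
  expand : ∀ u, ∀ i : ℕ, c * ρ' ^ i * ‖u‖ ≤ ‖(T ^ i) u‖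

/-- The parameter `c` keeps `V` in the trap up to time `j`; `R = Γ * η`. -/
def Dom {H : Type*} [NormedAddCommGroup H] {d : ℕ} (V : ℕ → (Fin d → ℝ) → H) (R lam : ℝ) (j : ℕ)
    (c : Fin d → ℝ) : Prop :=
  ‖c‖ ≤ R ∧ ∀ i, i ≤ j → ‖V i c‖ ≤ R * lam ^ i

end Vale.Agent.P264.Abstract
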