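import Vale.Agent.P264.Abstract.Targets

/-!
# P264: the discrete trapping argument

If a parametrised sequence `V` is, as long as it stays in the trap `‖V i c‖ ≤ Γ η lam ^ i`, driven
up to `ε` by `B ^ m`, and the parameter covers the expanding quotient at time `0`, then some
parameter stays in the trap forever: by induction the image at time `j` contains a Lipschitz graph
over the whole ball of radius `η lam ^ j` of the quotient.
-/

namespace Vale.Agent.P264.Abstract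

open Metric Set Topology Function

attribute [-simp] pow_apply_eq_iterate FunLike.coe_pow_eq_iterate

variable {H : Type*} [NormedAddCommGroup H] [NormedSpace ℝ H]

/-- Expanding linear map plus a small Lipschitz perturbation: every point of the ball of radius
`lam * r` is attained on the ball of radius `r`, with a Lipschitz inverse. -/
theorem exists_preimage {d : ℕ} {TT : (Fin d → ℝ) →L[ℝ] (Fin d → ℝ)}
    {p : (Fin d → ℝ) → (Fin d → ℝ)} {β lam r : ℝ} (hlam : 0 < lam) (hr : 0 ≤ r)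
    (hβ : 2 * lam ≤ β) (hTT : ∀ u, β * ‖u‖ ≤ ‖TT u‖)
    (hp : ∀ y, ‖y‖ ≤ r → ‖p y‖ ≤ lam * r)
    (hpl : ∀ y y', ‖y‖ ≤ r → ‖y'‖ ≤ r → ‖p y - p y'‖ ≤ lam * ‖y - y'‖) :
    ∃ ψ : (Fin d → ℝ) → (Fin d → ℝ), (∀ z, ‖z‖ ≤ lam * r → ‖ψ z‖ ≤ r ∧ TT (ψ z) + p (ψ z) = z) ∧
      ∀ z z', ‖z‖ ≤ lam * r → ‖z'‖ ≤ lam * r → lam * ‖ψ z - ψ z'‖ ≤ ‖z - z'‖ := by
  have hβ0 : 0 < β := by linarith
  have hinj : Function.Injective TT.toLinearMap := by
    rw [← LinearMap.ker_eq_bot, LinearMap.ker_eq_bot']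
    intro u hu
    have h := hTT u
    simp only [ContinuousLinearMap.coe_coe] at hu
    rw [hu, norm_zero] at h
    exact norm_eq_zero.1 (le_antisymm (nonpos_of_mul_nonpos_right h hβ0) (norm_nonneg u))
  let Te := LinearEquiv.ofBijective TT.toLinearMap
    ⟨hinj, LinearMap.injective_iff_surjective.1 hinj⟩
  have hTe : ∀ w, TT (Te.symm w) = w := fun w => Te.apply_symm_apply w
  have hTi : ∀ w, ‖Te.symm w‖ ≤ ‖w‖ / β := fun w => by
    rw [le_div_iff₀ hβ0, mul_comm]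
    exact (hTT _).trans (le_of_eq (by rw [hTe]))
  have key : ∀ z : Fin d → ℝ, ‖z‖ ≤ lam * r → ∃ y, ‖y‖ ≤ r ∧ TT y + p y = z := by
    intro z hz
    let f : (Fin d → ℝ) → (Fin d → ℝ) := fun y => Te.symm (z - p y)
    have hf : MapsTo f (closedBall 0 r) (closedBall 0 r) := by
      intro y hy
      rw [mem_closedBall_zero_iff] at hy ⊢
      refine (hTi _).trans ((div_le_iff₀ hβ0).2 ?_)
      calc ‖z - p y‖ ≤ lam * r + lam * r := (norm_sub_le _ _).trans (add_le_add hz (hp y hy))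
        _ = r * (2 * lam) := by ring
        _ ≤ r * β := mul_le_mul_of_nonneg_left hβ hr
    have hc : ContractingWith (1 / 2 : NNReal) (hf.restrict f (closedBall 0 r) (closedBall 0 r)) := by
      refine ⟨by norm_num, LipschitzWith.of_dist_le_mul fun y y' => ?_⟩
      show dist (f y) (f y') ≤ ((1 / 2 : NNReal) : ℝ) * dist (y : Fin d → ℝ) y'
      simp only [f, dist_eq_norm, ← map_sub, NNReal.coe_div, NNReal.coe_one, NNReal.coe_ofNat]
      refine (hTi _).trans ((div_le_iff₀ hβ0).2 ?_)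
      rw [show z - p y - (z - p y') = p y' - p y by abel]
      calc ‖p y' - p y‖ ≤ lam * ‖(y' : Fin d → ℝ) - y‖ :=
            hpl _ _ (mem_closedBall_zero_iff.1 y'.2) (mem_closedBall_zero_iff.1 y.2)
        _ = lam * ‖(y : Fin d → ℝ) - y'‖ := by rw [norm_sub_rev]
        _ ≤ (β / 2) * ‖(y : Fin d → ℝ) - y'‖ := by gcongr; linarith
        _ = 1 / 2 * ‖(y : Fin d → ℝ) - y'‖ * β := by ring
    obtain ⟨y, hy, hfy, -⟩ := hc.exists_fixedPoint' isClosed_closedBall.isComplete hf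
      (mem_closedBall_self hr) (edist_ne_top _ _)
    refine ⟨y, mem_closedBall_zero_iff.1 hy, ?_⟩
    have h : TT y = z - p y := by
      conv_lhs => rw [← hfy.eq]
      exact hTe _
    rw [h, sub_add_cancel]
  choose! ψ hψr hψ using key
  refine ⟨ψ, fun z hz => ⟨hψr z hz, hψ z hz⟩, fun z z' hz hz' => ?_⟩
  have h1 : TT (ψ z - ψ z') = (z - z') - (p (ψ z) - p (ψ z')) := by
    rw [map_sub]
    linear_combination (norm := abel) hψ z hz - hψ z' hz'
  have h2 : β * ‖ψ z - ψ z'‖ ≤ ‖z - z'‖ + ‖p (ψ z) - p (ψ z')‖ := by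
    refine (hTT _).trans ?_
    rw [h1]
    exact norm_sub_le _ _
  have h3 := hpl _ _ (hψr z hz) (hψr z' hz')
  nlinarith [norm_nonneg (ψ z - ψ z')]

theorem pow_intertwine {B : H →L[ℝ] H} {ρ ρ' : ℝ} (S : Splitting H B ρ ρ') (n : ℕ)
    (v : H) : S.P ((B ^ n) v) = (S.T ^ n) (S.P v) := by
  induction n with
  | zero => simp
  | succ n ih => rw [pow_succ' B, pow_succ' S.T, mul_apply_eq_comp, mul_apply_eq_comp,
      S.intertwine, ih]

theorem pow_invariant {B : H →L[ℝ] H} {ρ ρ' : ℝ} (S : Splitting H B ρ ρ') (n : ℕ)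
    (u : Fin S.d → ℝ) : (B ^ n) (S.σ u) = S.σ ((S.T ^ n) u) := by
  induction n with
  | zero => simp
  | succ n ih => rw [pow_succ' B, pow_succ' S.T, mul_apply_eq_comp, mul_apply_eq_comp, ih,
      S.invariant]

/-- At time `j` the trap contains, through `φ`, a Lipschitz graph over the ball of radius
`η lam ^ j` of the quotient. -/
def Graph {B : H →L[ℝ] H} {ρ ρ' : ℝ} (S : Splitting H B ρ ρ') (V : ℕ → (Fin S.d → ℝ) → H)
    (Γ γ η lam : ℝ) (j : ℕ) (φ : (Fin S.d → ℝ) → (Fin S.d → ℝ)) : Prop :=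
  ∀ y, ‖y‖ ≤ η * lam ^ j →
    (Dom V (Γ * η) lam j (φ y) ∧ S.P (V j (φ y)) = y ∧
      ‖V j (φ y) - S.σ (S.P (V j (φ y)))‖ ≤ γ * (η * lam ^ j)) ∧
    ∀ y', ‖y'‖ ≤ η * lam ^ j →
      ‖(V j (φ y) - S.σ (S.P (V j (φ y)))) - (V j (φ y') - S.σ (S.P (V j (φ y'))))‖
        ≤ γ * ‖y - y'‖

/-- The induction step of the trap. -/
theorem graph_step {B : H →L[ℝ] H} {ρ ρ2 : ℝ} (hρ : 0 ≤ ρ) (S : Splitting H B ρ ρ2) {m : ℕ}
    {κ Γ γ η lam ε F : ℝ} {Q : H →L[ℝ] H} (hQ : ∀ v, Q v = v - S.σ (S.P v)) (hγ : 1 ≤ γ)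
    (hΓ : ‖S.σ‖ + γ ≤ Γ) (hκ : 0 < κ) (hκa : ‖S.P‖ * (κ * (Γ + 1)) ≤ 1 / 2)
    (hκq : ‖Q‖ * (κ * (Γ + 1)) ≤ 1 / 2) (hη : 0 < η) (hlam : 0 < lam)
    (hα : S.C * ρ ^ m ≤ lam / 2) (hβ : 2 * lam ≤ S.c * ρ2 ^ m) (hεκ : ε ≤ κ * lam)
    (hF : F ≤ κ * η * lam) {V : ℕ → (Fin S.d → ℝ) → H} {j : ℕ}
    (hstep : ∀ c, Dom V (Γ * η) lam j c →
      ‖V (j + 1) c - (B ^ m) (V j c)‖ ≤ ε * ‖V j c‖ + F * lam ^ j)
    (hdiff : ∀ c c', Dom V (Γ * η) lam j c → Dom V (Γ * η) lam j c' →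
      ‖V (j + 1) c - V (j + 1) c' - (B ^ m) (V j c - V j c')‖ ≤ ε * ‖V j c - V j c'‖)
    {φ : (Fin S.d → ℝ) → (Fin S.d → ℝ)} (hφ : Graph S V Γ γ η lam j φ) :
    ∃ φ', Graph S V Γ γ η lam (j + 1) φ' := by
  unfold Graph at hφ ⊢
  simp only [← hQ] at hφ ⊢
  have hQP : ∀ v, S.P (Q v) = 0 := fun v => by rw [hQ, map_sub, S.right_inv, sub_self]
  let A := B ^ m
  let R := Γ * η
  let g := ‖S.σ‖
  let q := ‖Q‖
  have hg : 0 ≤ g := norm_nonneg _
  have hq : 0 ≤ q := norm_nonneg _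
  have ha : 0 ≤ ‖S.P‖ := norm_nonneg _
  have hΓ0 : 0 ≤ Γ := by linarith [norm_nonneg S.σ]
  have hr : 0 ≤ η * lam ^ j := by positivity
  let v := fun y => V j (φ y)
  let e := fun y => V (j + 1) (φ y) - A (v y)
  have hdec : ∀ y, ‖y‖ ≤ η * lam ^ j → v y = S.σ y + Q (v y) := fun y hy => by
    rw [hQ, (hφ y hy).1.2.1]; abel
  have hvn : ∀ y, ‖y‖ ≤ η * lam ^ j → ‖v y‖ ≤ Γ * (η * lam ^ j) := fun y hy => by
    rw [hdec y hy]
    calc ‖S.σ y + Q (v y)‖ ≤ g * (η * lam ^ j) + γ * (η * lam ^ j) :=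
          (norm_add_le _ _).trans (add_le_add ((S.σ.le_opNorm y).trans
            (mul_le_mul_of_nonneg_left hy hg)) (hφ y hy).1.2.2)
      _ ≤ Γ * (η * lam ^ j) := by rw [← add_mul]; exact mul_le_mul_of_nonneg_right hΓ hr
  have hvl : ∀ y y', ‖y‖ ≤ η * lam ^ j → ‖y'‖ ≤ η * lam ^ j →
      ‖v y - v y'‖ ≤ Γ * ‖y - y'‖ := fun y y' hy hy' => by
    rw [hdec y hy, hdec y' hy', add_sub_add_comm, ← map_sub]
    calc ‖S.σ (y - y') + (Q (v y) - Q (v y'))‖ ≤ g * ‖y - y'‖ + γ * ‖y - y'‖ :=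
          (norm_add_le _ _).trans (add_le_add (S.σ.le_opNorm _) ((hφ y hy).2 y' hy'))
      _ ≤ Γ * ‖y - y'‖ := by
          rw [← add_mul]; exact mul_le_mul_of_nonneg_right hΓ (norm_nonneg _)
  have hen : ∀ y, ‖y‖ ≤ η * lam ^ j → ‖e y‖ ≤ κ * (Γ + 1) * (lam * (η * lam ^ j)) :=
    fun y hy => by
    calc ‖e y‖ ≤ ε * ‖v y‖ + F * lam ^ j := hstep _ (hφ y hy).1.1
      _ ≤ κ * lam * (Γ * (η * lam ^ j)) + κ * η * lam * lam ^ j :=
          add_le_add (mul_le_mul hεκ (hvn y hy) (norm_nonneg _) (by positivity))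
            (mul_le_mul_of_nonneg_right hF (by positivity))
      _ = κ * (Γ + 1) * (lam * (η * lam ^ j)) := by ring
  have hel : ∀ y y', ‖y‖ ≤ η * lam ^ j → ‖y'‖ ≤ η * lam ^ j →
      ‖e y - e y'‖ ≤ κ * (Γ + 1) * (lam * ‖y - y'‖) := fun y y' hy hy' => by
    have h := hdiff _ _ (hφ y hy).1.1 (hφ y' hy').1.1
    rw [show e y - e y' = V (j + 1) (φ y) - V (j + 1) (φ y') - A (v y - v y') by
      simp only [e, map_sub]; abel]
    calc _ ≤ ε * ‖v y - v y'‖ := h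
      _ ≤ κ * lam * (Γ * ‖y - y'‖) :=
          mul_le_mul hεκ (hvl y y' hy hy') (norm_nonneg _) (by positivity)
      _ ≤ κ * (Γ + 1) * (lam * ‖y - y'‖) := by
          have : 0 ≤ κ * (lam * ‖y - y'‖) := by positivity
          linarith
  obtain ⟨ψ, hψ, hψl⟩ := exists_preimage (TT := S.T ^ m) (p := fun y => S.P (e y))
    (β := S.c * ρ2 ^ m) hlam hr hβ (fun u => S.expand u m)
    (fun y hy => (S.P.le_opNorm _).trans (by
      have h := mul_le_mul_of_nonneg_left (hen y hy) ha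
      have h0 : 0 ≤ lam * (η * lam ^ j) := by positivity
      nlinarith [hκa]))
    (fun y y' hy hy' => by
      rw [← map_sub]
      refine (S.P.le_opNorm _).trans ?_
      have h := mul_le_mul_of_nonneg_left (hel y y' hy hy') ha
      have h0 : 0 ≤ lam * ‖y - y'‖ := by positivity
      nlinarith [hκa])
  have hz : ∀ z : Fin S.d → ℝ, ‖z‖ ≤ η * lam ^ (j + 1) → ‖z‖ ≤ lam * (η * lam ^ j) :=
    fun z h => h.trans (le_of_eq (by ring))
  have hnew : ∀ y, ‖y‖ ≤ η * lam ^ j → V (j + 1) (φ y) = A (v y) + e y := fun y _ => by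
    simp only [e]; abel
  have hQA : ∀ w, Q (A w) = A (Q w) := fun w => by
    simp only [A, hQ, map_sub, pow_intertwine S, pow_invariant S]
  have hAQ : ∀ w, S.P w = 0 → ‖A w‖ ≤ S.C * ρ ^ m * ‖w‖ := fun w hw => S.stable w hw m
  refine ⟨φ ∘ ψ, fun z hz0 => ?_⟩
  obtain ⟨hy, hyz⟩ := hψ z (hz z hz0)
  have hP : S.P (V (j + 1) (φ (ψ z))) = z := by
    rw [hnew _ hy, map_add, pow_intertwine S, (hφ _ hy).1.2.1]
    exact hyz
  have hQn : ‖Q (V (j + 1) (φ (ψ z)))‖ ≤ γ * (η * lam ^ (j + 1)) := by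
    rw [hnew _ hy, map_add, hQA]
    calc ‖A (Q (v (ψ z))) + Q (e (ψ z))‖
        ≤ S.C * ρ ^ m * (γ * (η * lam ^ j)) + q * (κ * (Γ + 1) * (lam * (η * lam ^ j))) :=
          (norm_add_le _ _).trans (add_le_add ((hAQ _ (hQP _)).trans
            (mul_le_mul_of_nonneg_left (hφ _ hy).1.2.2 (by have := S.C_pos; positivity)))
            ((Q.le_opNorm _).trans (mul_le_mul_of_nonneg_left (hen _ hy) hq)))
      _ ≤ lam / 2 * (γ * (η * lam ^ j)) + 1 / 2 * (lam * (η * lam ^ j)) :=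
          add_le_add (mul_le_mul_of_nonneg_right hα (by positivity)) (by
            rw [← mul_assoc]
            exact mul_le_mul_of_nonneg_right hκq (by positivity))
      _ ≤ γ * (η * lam ^ (j + 1)) := by
          have : 0 ≤ lam * (η * lam ^ j) := by positivity
          rw [pow_succ]; nlinarith
  refine ⟨⟨⟨(hφ _ hy).1.1.1, fun i hi => ?_⟩, hP, hQn⟩, fun z' hz0' => ?_⟩
  · rcases Nat.lt_or_ge i (j + 1) with hlt | hge
    · exact (hφ _ hy).1.1.2 i (Nat.lt_succ_iff.1 hlt)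
    · rw [show i = j + 1 by omega, comp_apply]
      have e2 : V (j + 1) (φ (ψ z)) = S.σ z + Q (V (j + 1) (φ (ψ z))) := by
        rw [hQ, hP]; abel
      rw [e2]
      calc _ ≤ g * (η * lam ^ (j + 1)) + γ * (η * lam ^ (j + 1)) :=
            (norm_add_le _ _).trans (add_le_add ((S.σ.le_opNorm z).trans
              (mul_le_mul_of_nonneg_left hz0 hg)) hQn)
        _ ≤ R * lam ^ (j + 1) := by
            rw [← add_mul, mul_assoc]; exact mul_le_mul_of_nonneg_right hΓ (by positivity)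
  · obtain ⟨hy', -⟩ := hψ z' (hz z' hz0')
    simp only [comp_apply]
    rw [hnew _ hy, hnew _ hy', map_add, map_add, hQA, hQA, add_sub_add_comm, ← map_sub A,
      ← map_sub Q (e _)]
    calc ‖A (Q (v (ψ z)) - Q (v (ψ z'))) + Q (e (ψ z) - e (ψ z'))‖
        ≤ S.C * ρ ^ m * (γ * ‖ψ z - ψ z'‖) + q * (κ * (Γ + 1) * (lam * ‖ψ z - ψ z'‖)) :=
          (norm_add_le _ _).trans (add_le_add ((hAQ _ (by rw [map_sub, hQP, hQP, sub_zero])).trans
            (mul_le_mul_of_nonneg_left ((hφ _ hy).2 _ hy') (by have := S.C_pos; positivity)))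
            ((Q.le_opNorm _).trans (mul_le_mul_of_nonneg_left (hel _ _ hy hy') hq)))
      _ ≤ lam / 2 * (γ * ‖ψ z - ψ z'‖) + 1 / 2 * (lam * ‖ψ z - ψ z'‖) :=
          add_le_add (mul_le_mul_of_nonneg_right hα (by positivity)) (by
            rw [← mul_assoc]
            exact mul_le_mul_of_nonneg_right hκq (by positivity))
      _ ≤ γ * ‖z - z'‖ := by
          have h := hψl z z' (hz z hz0) (hz z' hz0')
          have h0 : 0 ≤ lam * ‖ψ z - ψ z'‖ := by positivity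
          nlinarith

/-- Trapping: some parameter stays in the trap forever. -/
theorem trap {B : H →L[ℝ] H} {ρ ρ1 ρ2 : ℝ} (hρ : 0 ≤ ρ) (h1 : ρ < ρ1) (h2 : ρ1 < ρ2)
    (S : Splitting H B ρ ρ2) (J : (Fin S.d → ℝ) →L[ℝ] H)
    (hJ : Function.Bijective fun u => S.P (J u)) :
    ∃ κ Γ : ℝ, ∃ m₀ : ℕ, 0 < κ ∧ 0 < Γ ∧
      ∀ m : ℕ, m₀ ≤ m → ∀ ε η F : ℝ, 0 ≤ ε → ε ≤ κ * ρ1 ^ m → 0 < η → 0 ≤ F →
        F ≤ κ * η * ρ1 ^ m →
      ∀ V : ℕ → (Fin S.d → ℝ) → H,
        (∀ c, ‖c‖ ≤ Γ * η → V 0 c = J c) →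
        (∀ j c, Dom V (Γ * η) (ρ1 ^ m) j c →
          ‖V (j + 1) c - (B ^ m) (V j c)‖ ≤ ε * ‖V j c‖ + F * (ρ1 ^ m) ^ j) →
        (∀ j c c', Dom V (Γ * η) (ρ1 ^ m) j c → Dom V (Γ * η) (ρ1 ^ m) j c' →
          ‖V (j + 1) c - V (j + 1) c' - (B ^ m) (V j c - V j c')‖ ≤ ε * ‖V j c - V j c'‖) →
        ∃ c, ‖c‖ ≤ Γ * η ∧ ∀ j, ‖V j c‖ ≤ Γ * η * (ρ1 ^ m) ^ j := by
  classical
  have hρ1 : 0 < ρ1 := lt_of_le_of_lt hρ h1
  have hρ2 : 0 < ρ2 := hρ1.trans h2
  let Le : (Fin S.d → ℝ) ≃ₗ[ℝ] (Fin S.d → ℝ) :=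
    LinearEquiv.ofBijective (S.P.comp J).toLinearMap hJ
  let Linv : (Fin S.d → ℝ) →L[ℝ] (Fin S.d → ℝ) :=
    LinearMap.toContinuousLinearMap Le.symm.toLinearMap
  have hLinv : ∀ y, S.P (J (Linv y)) = y := fun y => Le.apply_symm_apply y
  let Q : H →L[ℝ] H := ContinuousLinearMap.id ℝ H - S.σ.comp S.P
  have hQ : ∀ v, Q v = v - S.σ (S.P v) := fun v => rfl
  have hQP : ∀ v, S.P (Q v) = 0 := fun v => by rw [hQ, map_sub, S.right_inv, sub_self]
  -- constants
  let g := ‖S.σ‖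
  let a := ‖S.P‖
  let q := ‖Q‖
  let γ := max (‖Q‖ * ‖J‖ * ‖Linv‖) 1
  let Γ := g + γ + ‖Linv‖
  let κ := 1 / (2 * (a + q + 1) * (Γ + 1))
  have hg : 0 ≤ g := norm_nonneg _
  have ha : 0 ≤ a := norm_nonneg _
  have hq : 0 ≤ q := norm_nonneg _
  have hγ : 1 ≤ γ := le_max_right _ _
  have hΓ : g + γ ≤ Γ ∧ ‖Linv‖ ≤ Γ ∧ 0 < Γ := by
    refine ⟨?_, ?_, ?_⟩ <;> simp only [Γ] <;> linarith [norm_nonneg Linv]
  have hκ : 0 < κ := by simp only [κ]; have := hΓ.2.2; positivity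
  have hκa : a * (κ * (Γ + 1)) ≤ 1 / 2 ∧ q * (κ * (Γ + 1)) ≤ 1 / 2 := by
    have hpos : 0 < a + q + 1 := by linarith
    have h : κ * (Γ + 1) = 1 / (2 * (a + q + 1)) := by
      have := hΓ.2.2
      simp only [κ]; field_simp
    constructor <;> rw [h, mul_one_div, div_le_div_iff₀ (by positivity) two_pos] <;> nlinarith
  -- large `m`: `α ≤ lam / 2` and `2 lam ≤ β`
  obtain ⟨ma, hma⟩ := exists_pow_lt_of_lt_one (show 0 < 1 / (2 * S.C) from by
    have := S.C_pos; positivity) ((div_lt_one hρ1).2 h1)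
  obtain ⟨mb, hmb⟩ := exists_pow_lt_of_lt_one (show 0 < S.c / 2 from by
    have := S.c_pos; positivity) ((div_lt_one hρ2).2 h2)
  refine ⟨κ, Γ, max ma mb, hκ, hΓ.2.2, ?_⟩
  intro m hm ε η F hε hεκ hη hF0 hF V hV0 hstep hdiff
  have hlam : 0 < ρ1 ^ m := pow_pos hρ1 m
  have hα : S.C * ρ ^ m ≤ ρ1 ^ m / 2 := by
    have h := (pow_le_pow_of_le_one (by positivity) ((div_le_one hρ1).2 h1.le)
      (le_of_max_le_left hm)).trans hma.le
    rw [div_pow, div_le_iff₀ hlam] at h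
    calc S.C * ρ ^ m ≤ S.C * (1 / (2 * S.C) * ρ1 ^ m) := mul_le_mul_of_nonneg_left h S.C_pos.le
      _ = ρ1 ^ m / 2 := by have := S.C_pos; field_simp
  have hβ : 2 * ρ1 ^ m ≤ S.c * ρ2 ^ m := by
    have h := (pow_le_pow_of_le_one (by positivity) ((div_le_one hρ2).2 h2.le)
      (le_of_max_le_right hm)).trans hmb.le
    rw [div_pow, div_le_iff₀ (pow_pos hρ2 m)] at h
    linarith
  set lam := ρ1 ^ m with hlamdef
  set A := B ^ m with hA
  set TT := S.T ^ m with hTTdef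
  let R := Γ * η
  -- the inductive invariant
  have inv : ∀ j : ℕ, ∃ φ : (Fin S.d → ℝ) → (Fin S.d → ℝ), Graph S V Γ γ η lam j φ := by
    intro j
    induction j with
    | zero =>
      refine ⟨Linv, ?_⟩
      unfold Graph
      simp only [← hQ]
      intro y hy
      simp only [pow_zero, mul_one] at hy
      have hR : ∀ y : Fin S.d → ℝ, ‖y‖ ≤ η → ‖Linv y‖ ≤ R := fun y hy =>
        (Linv.le_opNorm y).trans (mul_le_mul hΓ.2.1 hy (norm_nonneg _) hΓ.2.2.le)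
      have hQJ : ∀ y, ‖Q (J (Linv y))‖ ≤ γ * ‖y‖ := fun y =>
        ((Q.le_opNorm _).trans (mul_le_mul_of_nonneg_left ((J.le_opNorm _).trans
          (mul_le_mul_of_nonneg_left (Linv.le_opNorm y) (norm_nonneg _))) (norm_nonneg _))).trans
          (le_trans (le_of_eq (by ring)) (mul_le_mul_of_nonneg_right (le_max_left _ _)
            (norm_nonneg y)))
      have hv : ∀ y : Fin S.d → ℝ, ‖y‖ ≤ η → V 0 (Linv y) = J (Linv y) := fun y hy =>
        hV0 _ (hR y hy)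
      refine ⟨⟨⟨hR y hy, fun i hi => ?_⟩, ?_, ?_⟩, fun y' hy' => ?_⟩
      · rw [Nat.le_zero.1 hi, hv y hy, pow_zero, mul_one]
        have e : J (Linv y) = S.σ y + Q (J (Linv y)) := by rw [hQ, hLinv]; abel
        rw [e]
        calc ‖S.σ y + Q (J (Linv y))‖ ≤ g * ‖y‖ + γ * ‖y‖ :=
              (norm_add_le _ _).trans (add_le_add (S.σ.le_opNorm y) (hQJ y))
          _ ≤ R := by
              rw [← add_mul]
              exact mul_le_mul hΓ.1 hy (norm_nonneg _) hΓ.2.2.le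
      · rw [hv y hy, hLinv]
      · rw [hv y hy, pow_zero, mul_one]
        exact (hQJ y).trans (mul_le_mul_of_nonneg_left hy (by linarith))
      · simp only [pow_zero, mul_one] at hy'
        rw [hv y hy, hv y' hy', ← map_sub, ← map_sub, ← map_sub]
        exact hQJ _
    | succ j ih =>
      obtain ⟨φ, hφ⟩ := ih
      exact graph_step hρ S hQ hγ hΓ.1 hκ hκa.1 hκa.2 hη hlam hα hβ hεκ hF (hstep j) (hdiff j) hφ
  -- the domains are closed and `V` is continuous on them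
  have hcont : ∀ j, IsClosed {c | Dom V R lam j c} ∧ ContinuousOn (V j) {c | Dom V R lam j c} ∧
      ContinuousOn (V (j + 1)) {c | Dom V R lam j c} := by
    have hone : ∀ j, ContinuousOn (V j) {c | Dom V R lam j c} →
        ContinuousOn (V (j + 1)) {c | Dom V R lam j c} := by
      intro j hj c hc
      have hle : ∀ c' ∈ {c | Dom V R lam j c},
          ‖V (j + 1) c' - V (j + 1) c‖ ≤ (‖A‖ + ε) * ‖V j c' - V j c‖ := fun c' hc' => by
        calc ‖V (j + 1) c' - V (j + 1) c‖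
            = ‖A (V j c' - V j c) + (V (j + 1) c' - V (j + 1) c - A (V j c' - V j c))‖ := by
              rw [add_sub_cancel]
          _ ≤ ‖A‖ * ‖V j c' - V j c‖ + ε * ‖V j c' - V j c‖ :=
              (norm_add_le _ _).trans (add_le_add (A.le_opNorm _) (hdiff j _ _ hc' hc))
          _ = _ := by ring
      have h0 := tendsto_iff_norm_sub_tendsto_zero.1 (hj c hc)
      refine tendsto_iff_norm_sub_tendsto_zero.2 ?_
      refine squeeze_zero_norm' ?_ (by simpa using h0.const_mul (‖A‖ + ε))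
      filter_upwards [self_mem_nhdsWithin] with c' hc'
      simpa using hle c' hc'
    intro j
    induction j with
    | zero =>
      have hset : {c : Fin S.d → ℝ | Dom V R lam 0 c} = {c | ‖c‖ ≤ R ∧ ‖J c‖ ≤ R} := by
        ext c
        constructor
        · rintro ⟨h, h'⟩
          refine ⟨h, ?_⟩
          simpa [hV0 c h] using h' 0 le_rfl
        · rintro ⟨h, h'⟩
          exact ⟨h, fun i hi => by rw [Nat.le_zero.1 hi, hV0 c h]; simpa using h'⟩
      have hc : ContinuousOn (V 0) {c | Dom V R lam 0 c} :=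
        J.continuous.continuousOn.congr fun c hc => hV0 c hc.1
      refine ⟨?_, hc, hone 0 hc⟩
      rw [hset]
      exact (isClosed_le continuous_norm continuous_const).inter
        (isClosed_le J.continuous.norm continuous_const)
    | succ j ih =>
      have hset : {c | Dom V R lam (j + 1) c} =
          {c | Dom V R lam j c} ∩ V (j + 1) ⁻¹' closedBall 0 (R * lam ^ (j + 1)) := by
        ext c
        simp only [mem_ofPred_eq, mem_inter_iff, mem_preimage, mem_closedBall_zero_iff]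
        constructor
        · exact fun h => ⟨⟨h.1, fun i hi => h.2 i (by omega)⟩, h.2 _ le_rfl⟩
        · rintro ⟨h, h'⟩
          exact ⟨h.1, fun i hi => (Nat.le_succ_iff.1 hi).elim (h.2 i) fun he => he ▸ h'⟩
      have hsub : {c | Dom V R lam (j + 1) c} ⊆ {c | Dom V R lam j c} := by
        rw [hset]; exact inter_subset_left
      refine ⟨?_, ih.2.2.mono hsub, hone (j + 1) (ih.2.2.mono hsub)⟩
      rw [hset]
      exact ih.2.2.preimage_isClosed_of_isClosed ih.1 isClosed_closedBall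
  have hne : (⋂ j, {c | Dom V R lam j c}).Nonempty := by
    refine IsCompact.nonempty_iInter_of_sequence_nonempty_isCompact_isClosed _
      (fun j c h => ⟨h.1, fun i hi => h.2 i (by omega)⟩) (fun j => ?_) ?_ fun j => (hcont j).1
    · obtain ⟨φ, hφ⟩ := inv j
      exact ⟨φ 0, (hφ 0 (by rw [norm_zero]; positivity)).1.1⟩
    · refine (isCompact_closedBall (0 : Fin S.d → ℝ) R).of_isClosed_subset (hcont 0).1 ?_
      exact fun c hc => mem_closedBall_zero_iff.2 hc.1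
  obtain ⟨c, hc⟩ := hne
  rw [mem_iInter] at hc
  exact ⟨c, (hc 0).1, fun j => (hc j).2 j le_rfl⟩

end Vale.Agent.P264.Abstract
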